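import Vale.Agent.P354YR.Red
import Vale.Agent.P354YM.Props

/-!
Paths in Kerr: pointwise inequalities.
-/

open Set

noncomputable section

namespace Vale.Agent.P354PW

open Vale.Agent.P354n (R4 mink)
open Vale.Agent.P354I (dT rnd Sg rm rp)
open Vale.Agent.P354XS (zc dZ)
open Vale.Agent.P354XE
open Vale.Agent.P354XK (Sg_eq Sg_pos)
open Vale.Agent.P354YR

variable {M a : ℝ} {p u v w : R4}

/-! ### Cones -/

theorem mk_iff (hu : mink u u < 0) (hv : mink v v < 0) : mink u v < 0 ↔ 0 < u.1 * v.1 := by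
  obtain ⟨a, b, c, d⟩ := u
  obtain ⟨A, B, C, D⟩ := v
  simp only [mink, P354n.cu, P354n.cv, P354n.c1, P354n.c2] at *
  have e1 : (b * B + c * C + d * D) ^ 2 ≤ (b * b + c * c + d * d) * (B * B + C * C + D * D) := by
    nlinarith [sq_nonneg (b * C - c * B), sq_nonneg (b * D - d * B), sq_nonneg (c * D - d * C)]
  have n1 : 0 ≤ b * b + c * c + d * d := by nlinarith [sq_nonneg b, sq_nonneg c, sq_nonneg d]
  have n2 : 0 ≤ B * B + C * C + D * D := by nlinarith [sq_nonneg B, sq_nonneg C, sq_nonneg D]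
  have e2 : (b * b + c * c + d * d) * (B * B + C * C + D * D) < a * a * (A * A) :=
    mul_lt_mul'' (by linarith) (by linarith) n1 n2
  have e3 := abs_lt.1 ((sq_lt_sq.1 (show (b * B + c * C + d * D) ^ 2 < (a * A) ^ 2 by
    linarith)))
  constructor
  · intro k
    by_contra n
    rw [abs_of_nonpos (not_lt.1 n)] at e3
    linarith [e3.1]
  · intro k
    rw [abs_of_pos k] at e3
    linarith [e3.2]

/-- Timelike vectors in the same cone. -/
theorem tri {B : R4 → R4 → ℝ}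
    (s : ∃ L : R4 → R4, IsLinearMap ℝ L ∧ L.Injective ∧ ∀ v w, B v w = mink (L v) (L w))
    (hu : B u u < 0) (hv : B v v < 0) (hw : B w w < 0) (h1 : B u v < 0) (h2 : B v w < 0) :
    B u w < 0 := by
  obtain ⟨L, -, -, e⟩ := s
  simp only [e] at *
  rw [mk_iff hu hv] at h1
  rw [mk_iff hv hw] at h2
  rw [mk_iff hu hw]
  by_contra n
  nlinarith [mul_pos h1 h2, mul_nonneg (mul_self_nonneg (L v).1) (neg_nonneg.2 (not_lt.1 n))]

/-- Timelike vectors on the same side of a spacelike level. -/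
theorem lev_fut {B : R4 → R4 → ℝ} (l : ∀ a, IsLinearMap ℝ (B a)) (s : ∀ a b, B a b = B b a)
    (k : ∀ v : R4, v.1 = 0 → 0 ≤ B v v) (hu : B u u < 0) (hw : B w w < 0) (u0 : 0 < u.1)
    (w0 : 0 < w.1) : B u w < 0 := by
  have e := k (w.1 • u - u.1 • w) (by simp [mul_comm])
  rw [(l _).map_sub, (l _).map_smul, (l _).map_smul, s _ u, s _ w, (l _).map_sub, (l _).map_sub,
    (l _).map_smul, (l _).map_smul, (l _).map_smul, (l _).map_smul, s w u] at e
  simp only [smul_eq_mul] at e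
  by_contra n
  nlinarith [mul_nonneg (mul_pos u0 w0).le (not_lt.1 n), mul_pos (mul_pos w0 w0) (neg_pos.2 hu),
    mul_pos (mul_pos u0 u0) (neg_pos.2 hw)]

/-! ### The ingoing metric -/

theorem sp_eq (hp : xs p ≠ 0) (v : R4) :
    sp v v = dr p v ^ 2 + rd p ^ 2 * rnd (xs p) (xs v) (xs v) := by
  have := (rd_pos hp).ne'
  rw [rnd_dr hp]; field_simp; ring

theorem rnd_nn (hp : xs p ≠ 0) (v : R4) : 0 ≤ rnd (xs p) (xs v) (xs v) := by
  have r0 := rd_pos hp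
  have e : rnd (xs p) (xs v) (xs v) = ((p.2.1 * v.2.2.1 - p.2.2.1 * v.2.1) ^ 2 +
      (p.2.1 * v.2.2.2 - p.2.2.2 * v.2.1) ^ 2 + (p.2.2.1 * v.2.2.2 - p.2.2.2 * v.2.2.1) ^ 2) /
        rd p ^ 4 := by
    rw [rnd_c, dT_c]; field_simp; rw [rd_sq]; ring
  rw [e]; positivity

theorem dq_sq (hp : xs p ≠ 0) (v : R4) : dq p v ^ 2 ≤ rnd (xs p) (xs v) (xs v) := by
  have := rnd_dZ hp v v
  nlinarith [mul_nonneg (sq_nonneg (zc (xs p))) (rnd_nn hp v), mul_self_nonneg (dZ (xs p) (xs v))]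

theorem Sg_ge (p : R4) : rd p ^ 2 ≤ Sg a (rd p) (xs p) := by
  rw [Sg_eq]; nlinarith [mul_nonneg (sq_nonneg a) (sq_nonneg (zc (xs p)))]

theorem Sg_le (hp : xs p ≠ 0) : Sg a (rd p) (xs p) ≤ rd p ^ 2 + a ^ 2 := by
  rw [Sg_eq]; nlinarith [mul_nonneg (sq_nonneg a) (s2_nn hp)]

theorem H_le (hM : 0 ≤ M) (hp : xs p ≠ 0) :
    2 * M * rd p / Sg a (rd p) (xs p) ≤ 2 * M / rd p := by
  have r0 := rd_pos hp
  rw [div_le_div_iff₀ (Sg_pos r0) r0]
  nlinarith [mul_le_mul_of_nonneg_left (Sg_ge (a := a) p) hM]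

theorem nrm_sq (v : R4) : ‖v.2‖ ^ 2 ≤ sp v v := by
  have k : ‖v.2‖ ≤ rd v := by
    have e := rd_sq v
    refine norm_prod_le_iff.2 ⟨?_, norm_prod_le_iff.2 ⟨?_, ?_⟩⟩ <;>
      refine abs_le_of_sq_le_sq ?_ (rd_nn v) <;>
      nlinarith [sq_nonneg v.2.1, sq_nonneg v.2.2.1, sq_nonneg v.2.2.2]
  have := pow_le_pow_left₀ (norm_nonneg _) k 2
  rw [rd_sq] at this
  rw [sp]; linarith

theorem nrm_le (h0 : 0 ≤ v.1) (k : sp v v ≤ v.1 ^ 2) : ‖v‖ ≤ v.1 :=
  norm_prod_le_iff.2 ⟨(abs_of_nonneg h0).le,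
    (le_abs_self _).trans (abs_le_of_sq_le_sq ((nrm_sq v).trans k) h0)⟩

/-- Slow motion outside of the ergoregion. -/
theorem slow (h : |a| < M) (hr : 21 / 10 * M ≤ rd p) (h0 : 0 ≤ v.1) (k : sp v v ≤ (v.1 / 100) ^ 2) :
    gin M a p v v ≤ -(1 / 100) * v.1 ^ 2 := by
  have M0 := M_pos h
  have r0 : 0 < rd p := by linarith
  have hp := xs_ne r0
  have e := sp_eq hp v
  have n := rnd_nn hp v
  have q := dq_sq hp v
  have a2 : a ^ 2 ≤ rd p ^ 2 / 4 := by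
    have := dis_pos h
    nlinarith
  have H : 2 * M * rd p / Sg a (rd p) (xs p) ≤ 20 / 21 :=
    (H_le M0.le hp).trans (by rw [div_le_iff₀ r0]; linarith)
  have S := mul_le_mul_of_nonneg_right (Sg_le (a := a) hp) n
  have q1 := mul_le_mul_of_nonneg_left q (sq_nonneg a)
  have q2 := mul_le_mul_of_nonneg_right a2 n
  have r2 := mul_nonneg (sq_nonneg (rd p)) n
  have b1 : |dr p v| ≤ v.1 / 100 := abs_le_of_sq_le_sq (by linarith) (by linarith)
  have b2 : |a * dq p v| ≤ v.1 / 200 :=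
    abs_le_of_sq_le_sq (by nlinarith [sq_nonneg (dr p v)]) (by linarith)
  have b3 : kf a p v ^ 2 ≤ (203 / 200 * v.1) ^ 2 := by
    refine sq_le_sq' ?_ ?_ <;> rw [kf] <;> linarith [abs_le.1 b1, abs_le.1 b2]
  have b4 := mul_le_mul H b3 (sq_nonneg _) (by norm_num)
  have b5 : (dr p v - a * dq p v) ^ 2 ≤ (3 / 200 * v.1) ^ 2 := by
    refine sq_le_sq' ?_ ?_ <;> linarith [abs_le.1 b1, abs_le.1 b2]
  rw [gin]
  nlinarith [sq_nonneg (dr p v)]

/-- Fast ingoing radial motion. -/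
theorem fast (hM : 0 ≤ M) (hp : xs p ≠ 0) {ρ μ : ℝ} (m0 : 0 ≤ μ) (m1 : μ ≤ 1)
    (m2 : 2 * M * μ ≤ rd p) (e1 : v.1 = (1 + μ) * ρ) (e2 : v.2 = (-(ρ / rd p)) • p.2) :
    gin M a p v v ≤ -(μ / 4) * v.1 ^ 2 := by
  have r0 := rd_pos hp
  have k := rd_sq p
  have d1 : dr p v = -ρ := by
    rw [dr_c hp, sp, e2]
    simp only [Prod.smul_fst, Prod.smul_snd, smul_eq_mul]
    field_simp
    linear_combination ρ * k
  have d2 : dq p v = 0 := by
    rw [dq_c, e2]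
    simp only [Prod.smul_fst, Prod.smul_snd, smul_eq_mul]
    ring
  have d3 : rnd (xs p) (xs v) (xs v) = 0 := by
    rw [rnd_dr hp, d1, sp, e2]
    simp only [Prod.smul_fst, Prod.smul_snd, smul_eq_mul]
    field_simp
    linear_combination (-ρ ^ 2) * k
  have H : 2 * M * rd p / Sg a (rd p) (xs p) * μ ≤ 1 :=
    (mul_le_mul_of_nonneg_right (H_le hM hp) m0).trans (by
      rw [div_mul_eq_mul_div, div_le_one r0]; exact m2)
  have b := mul_le_mul_of_nonneg_right H (mul_nonneg m0 (sq_nonneg ρ))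
  have b2 : μ * ((1 + μ) ^ 2 * ρ ^ 2) ≤ μ * (4 * ρ ^ 2) :=
    mul_le_mul_of_nonneg_left (mul_le_mul_of_nonneg_right (by nlinarith) (sq_nonneg ρ)) m0
  rw [gin, kf, d1, d2, d3, e1]
  nlinarith [mul_nonneg (sq_nonneg μ) (sq_nonneg ρ)]

/-- The levels of t are uniformly spacelike. -/
theorem lev (h : |a| < M) {r0 : ℝ} (h0 : 0 < r0) (hr : r0 ≤ rd p) (e : v.1 = 0) :
    ‖v‖ ^ 2 ≤ (2 + 2 * M ^ 2 / r0 ^ 2) * gin M a p v v := by
  have M0 := M_pos h
  have r1 : 0 < rd p := by linarith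
  have hp := xs_ne r1
  have n := rnd_nn hp v
  have e1 : ‖v‖ ^ 2 ≤ sp v v := by
    rw [Prod.norm_def, e, norm_zero, max_eq_right (norm_nonneg _)]; exact nrm_sq v
  have g1 : (dr p v - a * dq p v) ^ 2 + rd p ^ 2 * rnd (xs p) (xs v) (xs v) ≤ gin M a p v v := by
    have := mul_le_mul_of_nonneg_right (Sg_ge (a := a) p) n
    have H : 0 ≤ 2 * M * rd p / Sg a (rd p) (xs p) := div_nonneg (by positivity) (Sg_pos r1).le
    rw [gin, e]
    nlinarith [mul_nonneg H (mul_self_nonneg (kf a p v))]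
  have c0 : 0 ≤ M ^ 2 / r0 ^ 2 := by positivity
  have a2 : a ^ 2 ≤ M ^ 2 / r0 ^ 2 * rd p ^ 2 := by
    have := dis_pos h
    have k : M ^ 2 / r0 ^ 2 * r0 ^ 2 = M ^ 2 := by field_simp
    nlinarith [mul_le_mul_of_nonneg_left (pow_le_pow_left₀ h0.le hr 2) c0]
  have q1 := mul_le_mul_of_nonneg_left (dq_sq hp v) (sq_nonneg a)
  have q2 := mul_le_mul_of_nonneg_right a2 n
  have q3 := mul_le_mul_of_nonneg_left g1 (show 0 ≤ 2 + 2 * (M ^ 2 / r0 ^ 2) by positivity)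
  have q4 := mul_nonneg c0 (sq_nonneg (dr p v - a * dq p v))
  have q5 := mul_nonneg (sq_nonneg (rd p)) n
  rw [mul_div_assoc]
  rw [sp_eq hp] at e1
  nlinarith [sq_nonneg (dr p v - 2 * (a * dq p v))]

end Vale.Agent.P354PW
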