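import Vale.Agent.P354PW.Seg

/-!
PATH, and chains from the slice T = 0 in the ingoing chart.
-/

open Set

noncomputable section

namespace Vale.Agent.P354PW

open Vale.Agent.P354n (R4)
open Vale.Agent.P354I (rm rp Sg)
open Vale.Agent.P354XE
open Vale.Agent.P354XK (Sg_pos)
open Vale.Agent.P354YR
open Vale.Agent.P354YM

variable {M a c L : ℝ} {S S' : Set R4} {p q v w x y z : R4}

theorem gin_symm : gin M a p v w = gin M a p w v := by
  simp only [gin, rnd_c]; ring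

theorem Sq.nrm_eq (h : Sq M a c L S x v) : ‖v‖ = v.1 :=
  h.nrm.antisymm ((le_abs_self _).trans (norm_fst_le v))

theorem Sq.neg (h : Sq M a c L S x v) (hc : 0 < c) {s : ℝ} (hs : s ∈ Icc (0 : ℝ) 1) :
    gin M a (x + s • v) v v < 0 :=
  (h.mem s hs).2.trans_lt (by nlinarith [mul_pos hc (pow_pos h.pos 2)])

theorem gin_XI (hp : xs p ≠ 0) (hv : 0 < v.1) : gin M a p v (XI M a p) < 0 := by
  rw [gin_symm, XI_gin hp, neg_lt_zero]
  exact mul_pos (Sg_pos (rd_pos hp)) hv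

theorem Sr.mono (h : Sr M a c L S x y) {c' L' : ℝ} (hc : c' ≤ c) (hL : L ≤ L') (hS : S ⊆ S') :
    Sr M a c' L' S' x y := Sq.mono h hc hL hS

theorem Sr.pc (h : Sr M a c L S x y) (hc : 0 < c) (hS : ∀ p ∈ S, xs p ≠ 0) :
    Pc (gin M a) (XI M a) c L S x y := by
  refine ⟨fun s => x + s • (y - x), ⟨by simp, by simp, fun s hs => ⟨(h.mem s hs).1,
    (hd_seg _ _ s).differentiableAt, ?_⟩⟩, fun s hs => ?_⟩ <;> rw [(hd_seg _ _ s).deriv]
  · exact ⟨Sq.neg h hc hs, gin_XI (hS _ (h.mem s hs).1) h.pos⟩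
  · rw [Sq.nrm_eq h]; exact ⟨h.le, (h.mem s hs).2⟩

theorem y0_rd (h : 0 ≤ M) (t : ℝ) : rd (t, y0 M) = 3 * M :=
  rd_eq (by positivity) (by simp only [y0]; ring)

/-- Two chords from the spine. -/
theorem two (h : |a| < M) {R : ℝ} (q0 : 3 * M ≤ rd q) (q1 : rd q ≤ R) :
    ∃ e, Sr M a (1 / 100) (200 * R) {p | 2 * M ≤ rd p ∧ rd p ≤ R ∧ p.1 ∈ Icc (q.1 - 400 * R) q.1}
        (q.1 - 400 * R, y0 M) e ∧
      Sr M a (1 / 100) (200 * R) {p | 2 * M ≤ rd p ∧ rd p ≤ R ∧ p.1 ∈ Icc (q.1 - 400 * R) q.1}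
        e q := by
  have M0 := M_pos h
  obtain ⟨b, b1, b2⟩ : ∃ b : ℝ, b ^ 2 = (3 * M) ^ 2 ∧ 0 ≤ b * q.2.2.1 := by
    rcases le_total 0 q.2.2.1 with k | k
    · exact ⟨3 * M, rfl, by positivity⟩
    · exact ⟨-(3 * M), by ring, mul_nonneg_of_nonpos_of_nonpos (by linarith) k⟩
  have e : rd (q.1 - 200 * R, 0, b, 0) = 3 * M := rd_eq (by positivity) (by simpa using b1)
  have e0 := y0_rd M0.le (q.1 - 400 * R)
  refine ⟨(q.1 - 200 * R, 0, b, 0), (chord h e0.ge (by linarith) e.ge (by linarith)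
    (by simp [sp, y0]) (by ring)).mono le_rfl le_rfl fun p hp => ⟨hp.1, hp.2.1, hp.2.2.1, ?_⟩,
    (chord h e.ge (by linarith) q0 q1 (by simpa [sp] using b2) (by ring)).mono le_rfl le_rfl
      fun p hp => ⟨hp.1, hp.2.1, ?_, hp.2.2.2⟩⟩
  · linarith [hp.2.2.2]
  · linarith [hp.2.2.1]

/-- The constant of the radial segments. -/
def mu (M r0 : ℝ) : ℝ := r0 / (2 * M + r0)

theorem mu_ok {r0 : ℝ} (hM : 0 < M) (h0 : 0 < r0) :
    0 < mu M r0 ∧ mu M r0 ≤ 1 ∧ 2 * M * mu M r0 ≤ r0 := by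
  have k : 0 < 2 * M + r0 := by positivity
  refine ⟨div_pos h0 k, (div_le_one k).2 (by linarith), ?_⟩
  rw [mu, ← mul_div_assoc, div_le_iff₀ k]
  nlinarith

/-- **PATH.** -/
theorem path : PATH := fun M a r0 R h h0 h1 h2 => by
  have M0 := M_pos h
  have r00 := (rm_nn h).trans_lt h0
  obtain ⟨m0, m1, m2⟩ := mu_ok M0 r00
  have c0 : 0 < mu M r0 / 100 := by positivity
  refine ⟨_, c0, 400 * R + 6 * M + 1, by linarith, 3, fun t τ hτ => ?_, fun p p0 p1 => ?_⟩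
  · have e := y0_rd M0.le t
    refine Sr.pc ?_ c0 fun p hp => xs_ne (by rw [rd_congr (q := (t, y0 M)) hp.1, e]; positivity)
    rw [Sr, show (t + τ, y0 M) - (t, y0 M) = ((τ, 0) : R4) by simp]
    exact (vert h (by linarith) hτ.1).mono (by linarith) (by linarith [hτ.2]) subset_rfl
  suffices k : ∃ l ∈ Icc 0 (400 * R + 6 * M + 1), Rl (Sr M a (mu M r0 / 100) (400 * R + 6 * M + 1)
      {x | r0 ≤ rd x ∧ rd x ≤ R ∧ x.1 ∈ Icc (p.1 - (400 * R + 6 * M + 1)) p.1}) 3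
        (p.1 - l, y0 M) p by
    obtain ⟨l, hl, k⟩ := k
    exact ⟨l, hl, k.map id fun x y e => e.pc c0 fun p hp => xs_ne (r00.trans_le hp.1)⟩
  rcases le_or_gt (3 * M) (rd p) with k | k
  · obtain ⟨e, e1, e2⟩ := two h k p1
    have e0 := y0_rd M0.le (p.1 - (400 * R + 1))
    refine ⟨400 * R + 1, ⟨by linarith, by linarith⟩, (((rl0 _).snoc ?_).snoc
      (e1.mono (by linarith) (by linarith) ?_)).snoc (e2.mono (by linarith) (by linarith) ?_)⟩
    · rw [Sr, show (p.1 - 400 * R, y0 M) - (p.1 - (400 * R + 1), y0 M) = ((1, 0) : R4) by simp]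
      refine (vert h (by linarith) one_pos).mono (by linarith) (by linarith) fun x hx => ?_
      have := rd_congr hx.1
      exact ⟨by linarith, by linarith, by linarith [hx.2.1], by linarith [hx.2.2]⟩
    all_goals exact fun x hx => ⟨by linarith [hx.1], hx.2.1, by linarith [hx.2.2.1], hx.2.2.2⟩
  · have r1 := r00.trans_le p0
    have e0 := up_rd (μ := mu M r0) r1 k.le
    obtain ⟨e, e1, e2⟩ := two h e0.ge (e0.trans_le h2)
    have e3 : (up (mu M r0) (3 * M) p).1 = p.1 - (1 + mu M r0) * (3 * M - rd p) := rfl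
    have b0 : 0 ≤ (1 + mu M r0) * (3 * M - rd p) := mul_nonneg (by linarith) (by linarith)
    have b1 : (1 + mu M r0) * (3 * M - rd p) ≤ 6 * M := by nlinarith
    refine ⟨(1 + mu M r0) * (3 * M - rd p) + 400 * R, ⟨by linarith, by linarith⟩, ?_⟩
    rw [← sub_sub p.1 (_ * _), ← e3]
    refine (((rl0 _).snoc (e1.mono (by linarith) (by linarith) ?_)).snoc
      (e2.mono (by linarith) (by linarith) ?_)).snoc
        ((rad M0.le m0.le m1 r1 (m2.trans p0) k).mono (by linarith) (by linarith) fun x hx =>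
          ⟨p0.trans hx.1, hx.2.1.trans h2, by linarith [hx.2.1, hx.2.2.2], hx.2.2.1⟩)
    all_goals exact fun x hx =>
      ⟨by linarith [hx.1], hx.2.1, by linarith [hx.2.2.1], by linarith [hx.2.2.2]⟩

/-! ### Chains from the slice -/

/-- The Kruskal time in the ingoing chart. -/
def kT (M a : ℝ) (x : R4) : ℝ := (kap M a x).1

theorem ch_fst (σ : Bool) (x : R4) : (ch M a σ x).1 = kT M a x := by cases σ <;> rfl

theorem kT_nn (hp : p ∈ DI M a) (k : 0 ≤ kT M a p) : rd p - rp M a ≤ pV M a p ^ 2 := by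
  have V0 := pV_pos hp
  have e : kT M a p = (-(rd p - rp M a) / pV M a p + pV M a p) / 2 := rfl
  have e1 : -(rd p - rp M a) / pV M a p * pV M a p = -(rd p - rp M a) := div_mul_cancel₀ _ V0.ne'
  nlinarith [mul_nonneg k V0.le]

theorem mf_le (h : |a| < M) {r r' : ℝ} (h0 : rm M a < r) (h1 : r ≤ r') : mf M a r ≤ mf M a r' :=
  Real.rpow_le_rpow (sub_pos.2 h0).le (by linarith)
    (div_nonneg (rm_nn h) (by linarith [rp_pos h]))

theorem rp_le (h : |a| < M) : rp M a ≤ 2 * M := by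
  have := rm_nn h
  simp only [rm, rp] at *; linarith

theorem kT_cont (h : |a| < M) : ContinuousOn (kT M a) (DI M a) := fun _ hp =>
  (s_kap h hp).continuousAt.fst.continuousWithinAt

/-- A lower bound for the time on T ≥ 0. -/
theorem ex_tl (h : |a| < M) (R : ℝ) :
    ∃ tl, ∀ x, 5 / 2 * M ≤ rd x → rd x ≤ R → 0 ≤ kT M a x → tl < x.1 := by
  have M0 := M_pos h
  have k0 := ka_pos h
  refine ⟨Real.log (M / 2 / mf M a R ^ 2) / (2 * ka M a) - 1, fun x x0 x1 x2 => ?_⟩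
  have r1 := rp_le h
  have hx : rm M a < rd x := by linarith [rm_lt h]
  have m0 := mf_pos hx
  have m1 := mf_le h hx x1
  have m2 := m0.trans_le m1
  have e := kT_nn hx x2
  rw [pV, mul_pow, sq (Real.exp _), ← Real.exp_add] at e
  have e1 := mul_le_mul_of_nonneg_right (pow_le_pow_left₀ m0.le m1 2)
    (Real.exp_pos (ka M a * x.1 + ka M a * x.1)).le
  have e2 : Real.log (M / 2 / mf M a R ^ 2) ≤ ka M a * x.1 + ka M a * x.1 := by
    rw [Real.log_le_iff_le_exp (by positivity), div_le_iff₀ (by positivity)]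
    linarith
  have : Real.log (M / 2 / mf M a R ^ 2) / (2 * ka M a) ≤ x.1 := by
    rw [div_le_iff₀ (by positivity)]
    linarith
  linarith

/-- The region swept out by the chains to q. -/
def Bk (M R : ℝ) (q : R4) : Set R4 :=
  {x | rd q ≤ rd x ∧ rd x ≤ R ∧ x.1 ≤ q.1 ∧ (5 / 2 * M ≤ rd x ∨ q.1 - x.1 ≤ 2 * (rd x - rd q))}

section
variable (h : |a| < M) {R tl : ℝ}
  (ht : ∀ x, 5 / 2 * M ≤ rd x → rd x ≤ R → 0 ≤ kT M a x → tl < x.1)
include h ht

theorem back1 (q0 : 5 / 2 * M ≤ rd q) (q1 : rd q ≤ R) (q2 : 0 ≤ kT M a q) :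
    ∃ z, z.2 = q.2 ∧ kT M a z = 0 ∧ ∃ k ≤ 1, Rl (Sr M a (1 / 100) (q.1 - tl)
      ({p | p.2 = q.2 ∧ p.1 ≤ q.1} ∩ {p | 0 ≤ kT M a p})) k z q := by
  have M0 := M_pos h
  have e : rd (tl, q.2) = rd q := rfl
  have k := vert h (x := (tl, q.2)) (by linarith) (sub_pos.2 (ht q q0 q1 q2))
  have e1 : ((tl, q.2) : R4) + (q.1 - tl, 0) = q := by simp
  have k1 := k.mono (S' := {p | p.2 = q.2 ∧ p.1 ≤ q.1}) le_rfl le_rfl fun x hx =>
    ⟨hx.1, by linarith [hx.2.2]⟩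
  rcases k1.cut ((kT_cont h).mono fun x hx => show rm M a < rd x by
    rw [rd_congr hx.1]; linarith [rm_lt h, rp_le h]) (e1.symm ▸ q2) with n | ⟨z, z0, z1, n⟩
  · have n1 := (n.mem 0 ⟨le_rfl, zero_le_one⟩).1.2
    rw [zero_smul, add_zero] at n1
    exact absurd (ht (tl, q.2) q0 q1 n1) (lt_irrefl tl)
  · exact ⟨z, z0.1, z1, by rwa [e1] at n⟩

/-- Every point of T ≥ 0 is reached from T = 0 by at most two segments. -/
theorem back {r0 : ℝ} (h0 : rm M a < r0) (hR : 5 / 2 * M ≤ R) (q0 : r0 ≤ rd q) (q1 : rd q ≤ R)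
    (q2 : 0 ≤ kT M a q) (L0 : 5 * M ≤ L) (L1 : q.1 - tl ≤ L) :
    ∃ z, rd q ≤ rd z ∧ kT M a z = 0 ∧ ∃ k ≤ 2,
      Rl (Sr M a (mu M r0 / 100) L (Bk M R q ∩ {p | 0 ≤ kT M a p})) k z q := by
  have M0 := M_pos h
  have r00 := (rm_nn h).trans_lt h0
  obtain ⟨m0, m1, m2⟩ := mu_ok M0 r00
  rcases le_or_gt (5 / 2 * M) (rd q) with k | k
  · obtain ⟨z, z0, z1, n, hn, e⟩ := back1 h ht k q1 q2
    refine ⟨z, (rd_congr z0).ge, z1, n, hn.trans one_le_two, e.map id fun x y e =>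
      e.mono (by linarith) L1 (inter_subset_inter_left _ fun x hx => ?_)⟩
    have := rd_congr hx.1
    exact ⟨this.ge, this.trans_le q1, hx.2, .inl (k.trans this.ge)⟩
  have r1 := r00.trans_le q0
  have e0 := up_rd (μ := mu M r0) r1 k.le
  have k1 : Sr M a (mu M r0 / 100) L (Bk M R q) _ q :=
    (rad M0.le m0.le m1 r1 (m2.trans q0) k).mono (by linarith) (by linarith) fun x hx =>
      ⟨hx.1, hx.2.1.trans hR, hx.2.2.1, .inr hx.2.2.2⟩
  rcases Sq.cut k1 ((kT_cont h).mono fun x hx => (h0.trans_le q0).trans_le hx.1)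
    (by rwa [add_sub_cancel]) with n | ⟨z, z0, z1, n, hn, e⟩
  · have n1 := (n.mem 0 ⟨le_rfl, zero_le_one⟩).1
    rw [zero_smul, add_zero] at n1
    obtain ⟨z, z0, z1, j, hj, e⟩ := back1 h ht e0.ge (e0.trans_le hR) n1.2
    refine ⟨z, by rw [rd_congr z0, e0]; exact k.le, z1, j + 1, by omega, Rl.snoc (e.map id
      fun x y e => e.mono (by linarith) (by linarith [n1.1.2.2.1])
        (inter_subset_inter_left _ fun x hx => ?_)) n⟩
    have := (rd_congr hx.1).trans e0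
    exact ⟨by linarith, by linarith, hx.2.trans n1.1.2.2.1, .inl this.ge⟩
  · exact ⟨z, z0.1, z1, n, hn.trans one_le_two, by rwa [add_sub_cancel] at e⟩
end

end Vale.Agent.P354PW
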