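import Vale.Agent.P354PW.Path

/-!
PATH0.
-/

open Set Filter Topology

noncomputable section

namespace Vale.Agent.P354PW

open Vale.Agent.P354n (R4)
open Vale.Agent.P354I (rm rp)
open Vale.Agent.P354R (Met)
open Vale.Agent.P354XE
open Vale.Agent.P354YR
open Vale.Agent.P354YM
open Vale.Agent.P354RC (at_df)

variable {M a c L : ℝ} {S S' : Set R4} {p q v w x y z : R4}

theorem pc_mono {g : Tw} {Xf : R4 → R4} (h : Pc g Xf c L S x y) {c' L' : ℝ} (hc : c' ≤ c)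
    (hL : L ≤ L') (hS : S ⊆ S') : Pc g Xf c' L' S' x y := by
  obtain ⟨γ, ⟨e0, e1, k⟩, k'⟩ := h
  exact ⟨γ, ⟨e0, e1, fun s hs => ⟨hS (k s hs).1, (k s hs).2⟩⟩, fun s hs => ⟨(k' s hs).1.trans hL,
    (k' s hs).2.trans (by nlinarith [sq_nonneg ‖deriv γ s‖])⟩⟩

theorem bil_smul {g : Tw} {D : Set R4} (m : Met g D) (hp : p ∈ D) (l : ℝ) :
    g p (l • v) (l • v) = l ^ 2 * g p v v ∧ ∀ w, g p (l • v) w = l * g p v w := by
  have e : ∀ w, g p (l • v) w = l * g p v w := fun w => by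
    rw [m.symm p hp, (m.lin p hp w).map_smul, m.symm p hp w, smul_eq_mul]
  exact ⟨by rw [e, (m.lin p hp v).map_smul, smul_eq_mul]; ring, e⟩

theorem hd_ch (h : |a| < M) (σ : Bool) {s : ℝ} (hp : x + s • v ∈ DI M a) :
    HasDerivAt (fun s : ℝ => ch M a σ (x + s • v)) (fderiv ℝ (ch M a σ) (x + s • v) v) s :=
  (at_df ((isCh h σ).pull.smooth.contDiffAt (open_DI.mem_nhds hp))).hasFDerivAt.comp_hasDerivAt s
    (hd_seg x v s)

/-- The image of a segment in the Kruskal chart. -/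
theorem Sr.pcK (h : |a| < M) (σ : Bool) (k : Sr M a c L S x y) (hc : 0 < c) (hS : S ⊆ DI M a)
    {C : ℝ} (C0 : 0 < C) (hC : ∀ p ∈ S, ‖fderiv ℝ (ch M a σ) p‖ ≤ C) :
    Pc (gK M a) (XK M a) (c / C ^ 2) (C * L) (ch M a σ '' S) (ch M a σ x) (ch M a σ y) := by
  have I := isCh h σ
  refine ⟨fun s => ch M a σ (x + s • (y - x)), ⟨by simp, by simp, fun s hs =>
    ⟨mem_image_of_mem _ (k.mem s hs).1, (hd_ch h σ (hS (k.mem s hs).1)).differentiableAt, ?_⟩⟩,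
    fun s hs => ?_⟩ <;> have hp := hS (k.mem s hs).1 <;> rw [(hd_ch h σ hp).deriv]
  · have hq := I.pull.maps hp
    have n := Sq.neg k hc hs
    rw [I.pull.eq _ hp] at n
    refine ⟨n, tri (gK_sig h hq) n (v := fderiv ℝ (ch M a σ) (x + s • (y - x))
      (XI M a (x + s • (y - x)))) ?_
      ((gK_lor h).tl _ hq) ?_ ?_⟩
    · rw [← I.pull.eq _ hp]; exact (gin_lor h).tl _ hp
    · rw [← I.pull.eq _ hp]; exact gin_XI (DI_ne h hp) k.pos
    · rw [(gK_met h).symm _ hq]; exact I.ori _ hp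
  · have b : ‖fderiv ℝ (ch M a σ) (x + s • (y - x)) (y - x)‖ ≤ C * (y - x).1 :=
      (ContinuousLinearMap.le_opNorm _ _).trans
        (mul_le_mul (hC _ (k.mem s hs).1) k.nrm (norm_nonneg _) C0.le)
    refine ⟨b.trans (mul_le_mul_of_nonneg_left k.le C0.le), ?_⟩
    rw [← I.pull.eq _ hp]
    refine (k.mem s hs).2.trans ?_
    have := mul_le_mul_of_nonneg_left (pow_le_pow_left₀ (norm_nonneg _) b 2)
      (show 0 ≤ c / C ^ 2 by positivity)
    have e : c / C ^ 2 * (C * (y - x).1) ^ 2 = c * (y - x).1 ^ 2 := by field_simp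
    linarith

theorem shell_cpt (r0 R t0 t1 : ℝ) : IsCompact {x : R4 | r0 ≤ rd x ∧ rd x ≤ R ∧ x.1 ∈ Icc t0 t1} := by
  refine Metric.isCompact_of_isClosed_isBounded ((isClosed_le continuous_const rd_cont).inter
    ((isClosed_le rd_cont continuous_const).inter (isClosed_Icc.preimage continuous_fst)))
    (isBounded_iff_forall_norm_le.2 ⟨|t0| + |t1| + R, fun x hx => norm_prod_le_iff.2 ⟨?_, ?_⟩⟩)
  · exact abs_le.2 ⟨by linarith [hx.2.2.1, neg_abs_le t0, abs_nonneg t1, rd_nn x, hx.2.1],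
      by linarith [hx.2.2.2, le_abs_self t1, abs_nonneg t0, rd_nn x, hx.2.1]⟩
  · have := (abs_le_of_sq_le_sq' ((nrm_sq x).trans_eq (by rw [rd_sq, sp]; ring)) (rd_nn x)).2
    linarith [hx.2.1, abs_nonneg t0, abs_nonneg t1]

/-- The points of S are reached uniformly. -/
def Gp (M a r1 r0 R : ℝ) (S : Set R4) : Prop :=
  ∃ c > 0, ∃ L k A', IsCompact A' ∧ (∀ p ∈ A', p ∈ D0 M a r1 ∧ r0 ≤ kr M a p ∧ kr M a p ≤ R) ∧
    ∀ p ∈ S, ∃ y ≠ 0, ∃ k' ≤ k, Pk (gK M a) (XK M a) c L A' k' (pt 0 y) p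

section
variable (h : |a| < M) {r1 r0 R : ℝ} (h1 : rm M a < r1) (h0 : r1 < r0)
include h h1 h0

/-- Near the slice. -/
theorem gp0 (hp : xs p ≠ 0) (p0 : r0 < kr M a p) (p1 : kr M a p < R) (e : p.1 = 0) :
    ∃ t ∈ 𝓝 p, Gp M a r1 r0 R (t ∩ {x | 0 ≤ x.1}) := by
  have hK : p ∈ DK M a := ⟨hp, by linarith⟩
  have w0 : 0 < (XK M a p).1 := by
    have := (tm_T h hK (by
      rw [e, abs_zero, zero_mul]
      exact mul_pos (mul_pos (ka_pos h) (M_pos h)) ((rm_nn h).trans_lt hK.2))).2.1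
    rwa [fderiv_fst] at this
  have w1 := (gK_lor h).tl p hK
  have w2 := (fut h hK w1.le w1.le).2.2.2 fun n => by rw [n] at w0; exact lt_irrefl _ w0
  generalize XK M a p = w at w0 w1 w2
  have n0 : 0 < ‖w‖ := w0.trans_le ((le_abs_self _).trans (norm_fst_le w))
  have cr := (s_kr (M := M) (a := a) contDiffAt_id hp).continuousAt
  obtain ⟨ρ, ρ0, k⟩ := Metric.nhds_basis_closedBall.eventually_iff.1
    ((open_ne.eventually_mem hp).and ((cr.eventually (lt_mem_nhds p0)).and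
      ((cr.eventually (gt_mem_nhds p1)).and
        (((s_gK h contDiffAt_id hK w w).continuousAt.eventually (gt_mem_nhds
          (show gK M a p w w < gK M a p w w / 2 by linarith))).and
          (((s_kl contDiffAt_id hp w).add (s_kn contDiffAt_id hp w)).continuousAt.eventually
            (lt_mem_nhds w2))))))
  have d0 : 0 < 1 + ‖w‖ / w.1 := by positivity
  refine ⟨_, Metric.closedBall_mem_nhds p (div_pos ρ0 d0), -(gK M a p w w / 2) / ‖w‖ ^ 2,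
    div_pos (by linarith) (by positivity), ρ, 1, Metric.closedBall p ρ ∩ {x | 0 ≤ x.1},
    (isCompact_closedBall p ρ).inter_right (isClosed_le continuous_const continuous_fst),
    fun x hx => ⟨⟨(k hx.1).1, hx.2, h0.trans (k hx.1).2.1⟩, (k hx.1).2.1.le, (k hx.1).2.2.1.le⟩,
    fun x hx => ?_⟩
  have x0 : 0 ≤ x.1 := hx.2
  have x1 : ‖x - p‖ ≤ ρ / (1 + ‖w‖ / w.1) := mem_closedBall_iff_norm.1 hx.1
  have x2 : x.1 ≤ ρ / (1 + ‖w‖ / w.1) := by
    have := (le_abs_self _).trans ((norm_fst_le (x - p)).trans x1)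
    rwa [Prod.fst_sub, e, sub_zero] at this
  have l0 : 0 ≤ x.1 / w.1 := div_nonneg x0 w0.le
  have x3 : ρ / (1 + ‖w‖ / w.1) + x.1 / w.1 * ‖w‖ ≤ ρ := by
    have := mul_le_mul_of_nonneg_right x2 (div_pos n0 w0).le
    have e1 : ρ / (1 + ‖w‖ / w.1) * (1 + ‖w‖ / w.1) = ρ := div_mul_cancel₀ _ d0.ne'
    have e2 : x.1 / w.1 * ‖w‖ = x.1 * (‖w‖ / w.1) := by ring
    linarith
  have nv : ‖(x.1 / w.1) • w‖ = x.1 / w.1 * ‖w‖ := by rw [norm_smul, Real.norm_of_nonneg l0]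
  have mem : ∀ s ∈ Icc (0 : ℝ) 1, x - (x.1 / w.1) • w + s • (x.1 / w.1) • w ∈
      Metric.closedBall p ρ := fun s hs => by
    rw [mem_closedBall_iff_norm, show x - (x.1 / w.1) • w + s • (x.1 / w.1) • w - p =
      (x - p) - (1 - s) • (x.1 / w.1) • w by module]
    refine (norm_sub_le _ _).trans ?_
    rw [norm_smul, nv, Real.norm_of_nonneg (sub_nonneg.2 hs.2)]
    nlinarith [mul_nonneg hs.1 (mul_nonneg l0 n0.le)]
  have z0 : (x - (x.1 / w.1) • w).1 = 0 := by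
    rw [Prod.fst_sub, Prod.smul_fst, smul_eq_mul, div_mul_cancel₀ _ w0.ne', sub_self]
  have z1 : pt 0 (xs (x - (x.1 / w.1) • w)) = x - (x.1 / w.1) • w := by rw [← z0, pt_xs]
  refine ⟨xs (x - (x.1 / w.1) • w), by simpa using (k (mem 0 ⟨le_rfl, zero_le_one⟩)).1, ?_⟩
  rw [z1]
  rcases x0.eq_or_lt with x4 | x4
  · exact ⟨0, zero_le_one, by rw [← x4, zero_div, zero_smul, sub_zero]; exact rl0 x⟩
  have l1 := div_pos x4 w0
  refine ⟨1, le_rfl, (rl0 _).snoc ⟨fun s => x - (x.1 / w.1) • w + s • (x.1 / w.1) • w,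
    ⟨by simp, by simp, fun s hs => ⟨⟨mem s hs, ?_⟩, (hd_seg _ _ s).differentiableAt, ?_⟩⟩,
    fun s hs => ?_⟩⟩
  · show 0 ≤ (x - (x.1 / w.1) • w).1 + s * (x.1 / w.1 * w.1)
    rw [z0, zero_add]
    exact mul_nonneg hs.1 (mul_nonneg l0 w0.le)
  all_goals
    obtain ⟨b0, b1, -, b2, b3⟩ := k (mem s hs)
    have hq : _ ∈ DK M a := ⟨b0, h1.trans (h0.trans b1)⟩
    obtain ⟨e1, e2⟩ := bil_smul (v := w) (gK_met h) hq (x.1 / w.1)
    rw [(hd_seg _ _ s).deriv]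
  · refine ⟨e1 ▸ mul_neg_of_pos_of_neg (by positivity) (b2.trans (by linarith)), ?_⟩
    rw [e2, (gK_met h).symm _ hq, gK_XK h hq]
    exact mul_neg_of_pos_of_neg l1 (neg_lt_zero.2 (div_pos b3 (sub_pos.2 hq.2)))
  · rw [e1, nv]
    refine ⟨by linarith [div_pos ρ0 d0], (mul_le_mul_of_nonneg_left b2.le (sq_nonneg _)).trans_eq ?_⟩
    field_simp

/-- Away from the slice. -/
theorem gp1 (hR : 5 / 2 * M ≤ R) (hp : p ∈ DK M a) (e : 0 < p.1) :
    ∃ t ∈ 𝓝 p, Gp M a r1 r0 R (t ∩ {x | 0 ≤ x.1 ∧ r0 ≤ kr M a x ∧ kr M a x ≤ R}) := by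
  obtain ⟨σ, hσ⟩ : ∃ σ, p ∈ DE M a σ := by
    rcases le_total 0 (kx M a p) with k | k
    · exact ⟨true, hp, show 0 < p.1 + _ by linarith⟩
    · exact ⟨false, hp, show 0 < p.1 - _ by linarith⟩
  have M0 := M_pos h
  have I := isCh h σ
  have r00 := (rm_nn h).trans_lt (h1.trans h0)
  obtain ⟨tl, ht⟩ := ex_tl h R
  have cc := (I.back.smooth.contDiffAt ((open_DE σ).mem_nhds hσ)).continuousAt.fst
  generalize e0 : (ci M a σ p).1 = t0
  have K := shell_cpt r0 R (min tl (t0 - 1 - 2 * R)) (t0 + 1)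
  have KS : _ ⊆ DI M a := fun x (hx : x ∈ {x : R4 | r0 ≤ rd x ∧ rd x ≤ R ∧
    x.1 ∈ Icc (min tl (t0 - 1 - 2 * R)) (t0 + 1)}) => (h1.trans h0).trans_le hx.1
  obtain ⟨C, hC⟩ := K.exists_bound_of_continuousOn
    ((I.pull.smooth.continuousOn_fderiv_of_isOpen open_DI (by simp)).mono KS)
  have C0 : 0 < |C| + 1 := by positivity
  have c0 : 0 < mu M r0 / 100 := by have := (mu_ok M0 r00).1; positivity
  refine ⟨_, inter_mem ((open_DE σ).mem_nhds hσ) (cc.eventually (Icc_mem_nhds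
    (show t0 - 1 < _ by linarith) (show _ < t0 + 1 by linarith))),
    mu M r0 / 100 / (|C| + 1) ^ 2, by positivity,
    (|C| + 1) * max (5 * M) (t0 + 1 - tl), 2, _, (K.image_of_continuousOn
      (I.pull.smooth.continuousOn.mono KS)).inter_right
        (isClosed_le (continuous_const (y := (0 : ℝ))) continuous_fst), ?_, fun x hx => ?_⟩
  · rintro _ ⟨⟨x, hx, rfl⟩, x0⟩
    have r := I.rad x (KS hx)
    exact ⟨⟨(I.pull.maps (KS hx)).1, x0, by linarith [hx.1]⟩, r ▸ hx.1, r ▸ hx.2.1⟩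
  obtain ⟨⟨x0, x1⟩, x2, x3, x4⟩ := hx
  have q0 := I.back.maps x0
  have q1 := I.right x x0
  have q2 := I.rad _ q0
  have q3 := ch_fst (M := M) (a := a) σ (ci M a σ x)
  rw [q1] at q2 q3
  obtain ⟨z, z0, z1, n, hn, k⟩ := back h ht (h1.trans h0) hR (q2 ▸ x3) (q2 ▸ x4) (q3 ▸ x2)
    (le_max_left _ (t0 + 1 - tl)) (le_max_of_le_right (by linarith [x1.2]))
  have sub : Bk M R (ci M a σ x) ∩ {p | 0 ≤ kT M a p} ⊆ {x : R4 | r0 ≤ rd x ∧ rd x ≤ R ∧
      x.1 ∈ Icc (min tl (t0 - 1 - 2 * R)) (t0 + 1)} := fun y hy => by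
    obtain ⟨⟨y0, y1, y2, y3⟩, y4⟩ := hy
    refine ⟨by linarith, y1, ?_, by linarith [x1.2]⟩
    rcases y3 with y3 | y3
    · exact min_le_of_left_le (ht y y3 y1 y4).le
    · exact min_le_of_right_le (by linarith [x1.1])
  have hz : z ∈ DI M a := show rm M a < rd z by linarith
  refine ⟨xs (ch M a σ z), (I.pull.maps hz).1, n, hn, ?_⟩
  rw [show pt 0 (xs (ch M a σ z)) = ch M a σ z by rw [← z1, ← ch_fst σ, pt_xs], ← q1]
  refine k.map _ fun u v e => pc_mono (e.pcK h σ c0 (sub.trans KS) C0 fun y hy =>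
    (hC y (sub hy)).trans (by linarith [le_abs_self C])) le_rfl le_rfl ?_
  rintro _ ⟨y, hy, rfl⟩
  exact ⟨mem_image_of_mem _ (sub hy), le_of_le_of_eq hy.2 (ch_fst σ y).symm⟩
end

theorem Gp.mono {r1 r0 R : ℝ} (hS : S ⊆ S') (h : Gp M a r1 r0 R S') : Gp M a r1 r0 R S := by
  obtain ⟨c, c0, L, k, A, h1, h2, h3⟩ := h
  exact ⟨c, c0, L, k, A, h1, h2, fun p hp => h3 p (hS hp)⟩

theorem Gp.union {r1 r0 R : ℝ} (h : Gp M a r1 r0 R S) (h' : Gp M a r1 r0 R S') :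
    Gp M a r1 r0 R (S ∪ S') := by
  obtain ⟨c, c0, L, k, A, h1, h2, h3⟩ := h
  obtain ⟨c', c1, L', k', A', h4, h5, h6⟩ := h'
  refine ⟨min c c', lt_min c0 c1, max L L', max k k', A ∪ A', h1.union h4,
    fun p hp => hp.elim (h2 p) (h5 p), fun p hp => ?_⟩
  rcases hp with hp | hp
  · obtain ⟨y, y0, n, hn, e⟩ := h3 p hp
    exact ⟨y, y0, n, le_max_of_le_left hn, Rl.map e id fun _ _ e =>
      pc_mono e (min_le_left _ _) (le_max_left _ _) subset_union_left⟩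
  · obtain ⟨y, y0, n, hn, e⟩ := h6 p hp
    exact ⟨y, y0, n, le_max_of_le_right hn, Rl.map e id fun _ _ e =>
      pc_mono e (min_le_right _ _) (le_max_right _ _) subset_union_right⟩

/-- **PATH0.** -/
theorem path0 : PATH0 := fun M a r1 r0 r2 _ _ R1 b hR A hA hm => by
  have M0 := M_pos b.lt
  obtain ⟨h1, h0, h2, -⟩ := b.r1
  refine hA.induction_on (p := Gp M a r1 r0 (R1 + M / 2)) ⟨1, one_pos, 0, 0, ∅, isCompact_empty,
    by simp, by simp⟩ (fun _ _ => Gp.mono) (fun _ _ => Gp.union) fun p hp => ?_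
  obtain ⟨p0, p1, p2⟩ := hm p hp
  rcases p0.2.1.eq_or_lt with e | e
  · obtain ⟨t, ht, k⟩ := gp0 (R := R1 + M / 2) b.lt h1 h0 p0.1 (by linarith) (by linarith) e.symm
    exact ⟨t ∩ A, inter_mem (mem_nhdsWithin_of_mem_nhds ht) self_mem_nhdsWithin,
      Gp.mono (fun x hx => by exact ⟨hx.1, (hm x hx.2).1.2.1⟩) k⟩
  · obtain ⟨t, ht, k⟩ := gp1 (R := R1 + M / 2) b.lt h1 h0 (by linarith) (D0_sub h1.le p0) e
    exact ⟨t ∩ A, inter_mem (mem_nhdsWithin_of_mem_nhds ht) self_mem_nhdsWithin,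
      Gp.mono (fun x hx => by
        exact ⟨hx.1, (hm x hx.2).1.2.1, h2.le.trans (hm x hx.2).2.1,
          (hm x hx.2).2.2.trans (by linarith)⟩) k⟩

end Vale.Agent.P354PW
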