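import Vale.Agent.P354PW.Path0

/-!
PTH.
-/

open Set Filter Topology

noncomputable section

namespace Vale.Agent.P354PW

open Vale.Agent.P354n (R4)
open Vale.Agent.P354I (rm rp dT Dat)
open Vale.Agent.P354XE
open Vale.Agent.P354YR
open Vale.Agent.P354YM

variable {M a c L : ℝ} {S : Set R4} {p q v w x y z : R4}

theorem bd0 {N : ℕ} {g g0 : Tw} {ε : ℝ} (h : Bd N (g - g0) p ε) (v : R4) :
    |g p v v - g0 p v v| ≤ ε * ‖v‖ ^ 2 := by
  have := h 0 (Nat.zero_le _) v v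
  rwa [norm_iteratedFDeriv_zero, ← sq] at this

/-! ### Between the ends -/

theorem gK_eT (h : |a| < M) (hp : p ∈ DK M a) (e1 : p.1 = 0) (e2 : kx M a p = 0) :
    gK M a p eT eT < 0 := by
  have d1 : dT (xs p) (xs eT) = 0 := by simp [dT_c, eT]
  have d2 : dq p eT = 0 := by simp [dq_c, eT]
  have d3 : P354I.rnd (xs p) (xs eT) (xs eT) = 0 := by rw [rnd_c, d1]; simp [eT]
  have := cP_pos h hp
  have := cS_pos h hp
  have := sub_pos.2 hp.2
  rw [gK_sq]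
  simp only [ang, kl, kn, kG, kU, kV, dU, dV, dQ, dx, d1, d2, d3, e1, e2, show eT.1 = 1 from rfl]
  simp only [mul_zero, zero_mul, sub_zero, add_zero, mul_one, ne_eq, OfNat.ofNat_ne_zero,
    not_false_eq_true, zero_pow, zero_div]
  exact div_neg_of_neg_of_pos (neg_lt_zero.2 (by positivity)) (by positivity)

/-- d/dT is uniformly timelike near the bifurcation sphere. -/
theorem ex_box (h : |a| < M) : ∃ b > 0, ∃ c > 0, ∀ p, xs p ≠ 0 → |p.1| ≤ b → |kx M a p| ≤ b →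
    p ∈ DK M a ∧ gK M a p eT eT ≤ -c := by
  have cg : ContinuousOn (fun p => gK M a p eT eT) (DK M a) := ((gK_met h).smooth _ _).continuousOn
  have o : IsOpen (DK M a ∩ (fun p => gK M a p eT eT) ⁻¹' Iio 0) :=
    cg.isOpen_inter_preimage open_DK isOpen_Iio
  obtain ⟨b, b0, hb⟩ := ((box_cpt h 1).diff o).exists_forall_le'
    (f := fun p => |p.1| + |kx M a p|) (a := 0) (fun p hp => (continuousAt_fst.abs.add
      (s_kx contDiffAt_id hp.1.1).continuousAt.abs).continuousWithinAt) fun p hp => by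
      by_contra n
      have e1 : p.1 = 0 := abs_nonpos_iff.1 (by linarith [abs_nonneg (kx M a p)])
      have e2 : kx M a p = 0 := abs_nonpos_iff.1 (by linarith [abs_nonneg p.1])
      have k : p ∈ DK M a := ⟨hp.1.1, by rw [kr, e1, e2]; linarith [rm_lt h]⟩
      exact hp.2 ⟨k, gK_eT h k e1 e2⟩
  have sub : ∀ p ∈ {p | xs p ≠ 0 ∧ |p.1| ≤ min (b / 3) 1 ∧ |kx M a p| ≤ min (b / 3) 1},
      p ∈ DK M a ∧ gK M a p eT eT < 0 := fun p hp => by
    by_contra n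
    have := hb p ⟨⟨hp.1, hp.2.1.trans (min_le_right _ _), hp.2.2.trans (min_le_right _ _)⟩, n⟩
    linarith [hp.2.1, hp.2.2, min_le_left (b / 3) 1]
  obtain ⟨c, c0, hc⟩ := (box_cpt h (min (b / 3) 1)).exists_forall_le'
    (f := fun p => -gK M a p eT eT) (a := 0) (cg.mono fun p hp => (sub p hp).1).neg
    fun p hp => neg_pos.2 (sub p hp).2
  exact ⟨_, lt_min (by linarith) one_pos, c, c0, fun p h1 h2 h3 =>
    ⟨(sub p ⟨h1, h2, h3⟩).1, by linarith [hc p ⟨h1, h2, h3⟩]⟩⟩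

section
variable (h : |a| < M) {r1 θ R s δ ε : ℝ} {N : ℕ} {d : Dat} {T : Tg}
  (hT : T.Is ⟨M, a, r1, θ, R, s, δ, ε, N⟩ d) (h1 : rm M a < r1)
include h hT h1

/-- The vertical segments in the box. -/
theorem mid {b : ℝ} (hb : ∀ p, xs p ≠ 0 → |p.1| ≤ b → |kx M a p| ≤ b →
      p ∈ DK M a ∧ gK M a p eT eT ≤ -c) (hε : ε < c) (hθ : 0 ≤ θ) (b1 : b ^ 2 ≤ M)
    (b2 : 2 * θ * mf M a (2 * M) ≤ b) (hx : x ∈ D0 M a r1) (x1 : kr M a x ≤ 2 * M)
    (x2 : x.1 + |kx M a x| ≤ 2 * θ * mf M a (kr M a x)) :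
    Cv T.g T.Xf {z ∈ D0 M a r1 | kr M a z ≤ 7 / 2 * M} (pt 0 (xs x)) x := by
  have x0 := hx.2.1
  rcases x0.eq_or_lt with e | e
  · rw [e, pt_xs]; exact .refl
  have M0 := M_pos h
  have x3 := x2.trans ((mul_le_mul_of_nonneg_left (mf_le h (h1.trans hx.2.2) x1)
    (by positivity)).trans b2)
  have a0 := abs_nonneg (kx M a x)
  refine .single ⟨fun s => pt 0 (xs x) + s • (x.1 • eT), by simp, by simp [pt, xs, eT],
    fun s hs => ?_⟩
  rw [(hd_seg _ _ s).deriv]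
  suffices k : _ ∧ _ from ⟨k.1, (hd_seg _ _ s).differentiableAt, k.2⟩
  beta_reduce
  generalize e0 : pt 0 (xs x) + s • (x.1 • eT) = p
  have e1 : p.1 = s * x.1 := by simp [← e0, pt, eT]
  have e2 : xs p = xs x := by simp [← e0, pt, eT, xs]
  have e3 : kx M a p = kx M a x := by rw [kx, kx, rd, rd, e2]
  have p0 : 0 ≤ p.1 := e1 ▸ mul_nonneg hs.1 x0
  have p1 : p.1 ≤ x.1 := e1 ▸ mul_le_of_le_one_left x0 hs.2
  have p2 : kr M a x ≤ kr M a p := by
    rw [kr, kr, e3]; linarith [pow_le_pow_left₀ p0 p1 2]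
  have hp : p ∈ D0 M a r1 := ⟨e2 ▸ hx.1, p0, hx.2.2.trans_le p2⟩
  have p3 : p.1 + |kx M a p| ≤ 2 * θ * mf M a (kr M a p) := by
    have := mul_le_mul_of_nonneg_left (mf_le h (h1.trans hx.2.2) p2)
      (show 0 ≤ 2 * θ by positivity)
    rw [e3]; linarith
  obtain ⟨-, k⟩ := hb p hp.1 (by rw [abs_of_nonneg p0]; linarith) (by rw [e3]; linarith)
  have hD := hT.sub hp
  have m := hT.lor.met
  obtain ⟨c1, c2⟩ := hT.box p ⟨hp, .inr p3⟩
  have n : T.g p eT eT < 0 := by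
    have := (abs_le.1 (bd0 (hT.mid p hp p3) eT)).2
    rw [show ‖eT‖ = 1 by simp [eT]] at this
    linarith
  have n1 : T.g p (x.1 • eT) (x.1 • eT) < 0 :=
    (bil_smul m hD x.1).1 ▸ mul_neg_of_pos_of_neg (by positivity) n
  refine ⟨⟨hp, ?_⟩, n1, lev_fut (m.lin p hD) (m.symm p hD)
    (fun v e => ?_) n1 (hT.lor.tl p hD) (by simpa [eT] using e) c1⟩
  · have := pow_le_pow_left₀ a0 (show |kx M a x| ≤ b by linarith) 2
    rw [sq_abs] at this
    rw [kr, e3]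
    linarith [rp_le h, sq_nonneg p.1]
  · rcases eq_or_ne v 0 with rfl | v0
    · exact (m.lin p hD 0).map_zero.ge
    · exact (c2 v v0 e).le

/-- The image of a segment in an end. -/
theorem Sr.cu (σ : Bool) {r0 : ℝ} (h0 : 0 < r0) (k : Sr M a c L S x y) (hε : ε < c)
    (ε1 : (2 + 2 * M ^ 2 / r0 ^ 2) * ε ≤ 1)
    (hS : ∀ p ∈ S, p ∈ En M a r1 θ ∧ r0 ≤ rd p ∧ rd p ≤ R + 2 ∧ rd p ≤ 7 / 2 * M) :
    ∃ γ, Cu T.g T.Xf {z ∈ D0 M a r1 | kr M a z ≤ 7 / 2 * M} (ch M a σ x) (ch M a σ y) γ := by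
  have I := isCh h σ
  refine ⟨fun s => ch M a σ (x + s • (y - x)), by simp, by simp, fun s hs => ?_⟩
  obtain ⟨p0, p1, p2, p3⟩ := hS _ (k.mem s hs).1
  have hp : _ ∈ DI M a := h1.trans p0.1
  have n0 := (k.mem s hs).2
  rw [(hd_ch h σ hp).deriv]
  suffices k : _ ∧ _ from ⟨k.1, (hd_ch h σ hp).differentiableAt, k.2⟩
  beta_reduce
  generalize x + s • (y - x) = p at *
  have hq : ch M a σ p ∈ D0 M a r1 := ⟨(I.pull.maps hp).1, le_of_le_of_eq p0.2.2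
    (ch_fst σ p).symm, (I.rad p hp).symm ▸ p0.1⟩
  have hD := hT.sub hq
  have m := hT.lor.met
  obtain ⟨c1, c2, -⟩ := (hT.ends σ).near p p0 p2
  have o := hT.ori σ p p0
  have n : pb (ch M a σ) T.g p (y - x) (y - x) < 0 := by
    have := (abs_le.1 (bd0 c2 (y - x))).2
    rw [Sq.nrm_eq k] at this
    nlinarith [mul_pos (sub_pos.2 hε) (pow_pos k.pos 2)]
  refine ⟨⟨hq, (I.rad p hp).trans_le p3⟩, n, o ▸ lev_fut (B := pb (ch M a σ) T.g p)
    (fun u => ⟨fun v w => ?_, fun l v => ?_⟩)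
    (fun u v => m.symm _ hD _ _) (fun v e => ?_) n ?_ k.pos c1⟩
  · simp only [pb, map_add, (m.lin _ hD _).map_add]
  · simp only [pb, map_smul, (m.lin _ hD _).map_smul]
  · have b := mul_le_mul_of_nonneg_left (abs_le.1 (bd0 c2 v)).1
      (show 0 ≤ 2 + 2 * M ^ 2 / r0 ^ 2 by positivity)
    have b1 := lev h h0 p1 e
    have b2 := mul_le_mul_of_nonneg_right ε1 (sq_nonneg ‖v‖)
    exact nonneg_of_mul_nonneg_right (a := 2 + 2 * M ^ 2 / r0 ^ 2) (by linarith) (by positivity)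
  · have := hT.lor.tl _ hD
    rwa [← o] at this
end

/-! ### The ends -/

theorem ex_q (h : |a| < M) (hp : p ∈ DK M a) (k : 0 < p.1 + |kx M a p|) :
    ∃ σ, ∃ q ∈ DI M a, ch M a σ q = p ∧ rd q = kr M a p ∧ pV M a q = p.1 + |kx M a p| := by
  rcases le_total 0 (kx M a p) with e | e
  · rw [abs_of_nonneg e] at k ⊢
    have m := kin_mem h hp
    have e1 := kap_kin h ⟨hp, k⟩
    exact ⟨true, _, m, e1, kin_rd h hp, by rw [← kap_V h m, e1, kV]⟩
  · rw [abs_of_nonpos e] at k ⊢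
    have hq := mir_mem h hp
    have m := kin_mem h hq
    have e1 := kap_kin h (mir_DE h (σ := false) ⟨hp, k⟩)
    exact ⟨false, _, m, (congrArg (mir M a) e1).trans (mir_mir h hp.1),
      (kin_rd h hq).trans (mir_r h hp.1), by rw [← kap_V h m, e1, mir_V h hp.1]; rfl⟩

/-- The chains do not leave the end. -/
theorem stay (h : |a| < M) {θ : ℝ} (θ0 : 0 < θ) (θ1 : θ ≤ 1)
    (θ2 : θ * (2 * ka M a * (mf M a (5 / 2 * M) ^ 2 * (1 + Real.exp (5 * M * ka M a) ^ 2))) ≤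
      Real.log 2) (hq : q ∈ DI M a) (q0 : 2 * θ < Real.exp (ka M a * q.1))
    (q1 : rp M a - rd q ≤ pV M a q ^ 2) (x0 : rd q ≤ rd x) (x1 : rd x ≤ 5 / 2 * M)
    (x2 : q.1 - x.1 ≤ 2 * (rd x - rd q)) (x3 : 0 ≤ kT M a x) : θ ≤ Real.exp (ka M a * x.1) := by
  by_contra n
  rw [not_le] at n
  have k0 := ka_pos h
  have hx : x ∈ DI M a := lt_of_lt_of_le hq x0
  have e1 : Real.exp (ka M a * q.1) ≤ θ * Real.exp (2 * ka M a * (rd x - rd q)) := by
    refine le_trans ?_ (mul_le_mul_of_nonneg_right n.le (Real.exp_pos _).le)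
    rw [← Real.exp_add]
    exact Real.exp_le_exp.2 (by nlinarith)
  have e2 : Real.log 2 < 2 * ka M a * (rd x - rd q) := by
    rw [Real.log_lt_iff_lt_exp two_pos]
    exact lt_of_mul_lt_mul_left (by linarith) θ0.le
  have e3 : Real.exp (ka M a * q.1) ≤ θ * Real.exp (5 * M * ka M a) :=
    e1.trans (mul_le_mul_of_nonneg_left (Real.exp_le_exp.2 (by nlinarith [rd_nn q])) θ0.le)
  have m0 := (mf_pos hq).trans_le (mf_le h hq (x0.trans x1))
  have v1 : pV M a q ≤ mf M a (5 / 2 * M) * (θ * Real.exp (5 * M * ka M a)) :=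
    mul_le_mul (mf_le h hq (x0.trans x1)) e3 (Real.exp_pos _).le m0.le
  have v2 : pV M a x ≤ mf M a (5 / 2 * M) * θ :=
    mul_le_mul (mf_le h hx x1) n.le (Real.exp_pos _).le m0.le
  have v3 := pow_le_pow_left₀ (pV_pos hq).le v1 2
  have v4 := pow_le_pow_left₀ (pV_pos hx).le v2 2
  have v5 := kT_nn hx x3
  have v6 : rd x - rd q ≤
      θ * (θ * (mf M a (5 / 2 * M) ^ 2 * (1 + Real.exp (5 * M * ka M a) ^ 2))) := by linarith
  have v7 := mul_le_of_le_one_left (show 0 ≤ θ * (mf M a (5 / 2 * M) ^ 2 *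
    (1 + Real.exp (5 * M * ka M a) ^ 2)) by positivity) θ1
  have := mul_le_mul_of_nonneg_left (v6.trans v7) (show 0 ≤ 2 * ka M a by positivity)
  linarith

/-- **PTH.** -/
theorem pth : PTH := fun M a r1 r0 r2 s δ B => by
  have h := B.lt
  obtain ⟨h1, h0, -⟩ := B.r1
  have M0 := M_pos h
  have k0 := ka_pos h
  have r00 := (rm_nn h).trans_lt (h1.trans h0)
  obtain ⟨b, b0, c, c0, hb⟩ := ex_box h
  obtain ⟨tl, ht⟩ := ex_tl h (5 / 2 * M)
  have m0 : 0 < mf M a (2 * M) := mf_pos ((rm_lt h).trans_le (rp_le h))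
  have m1 : 0 < mf M a (5 / 2 * M) := mf_pos (by linarith [rm_lt h, rp_le h])
  have u0 := (mu_ok M0 r00).1
  have l0 := Real.log_pos one_lt_two
  have s0 := Real.sqrt_pos.2 M0
  generalize eA : 2 * ka M a * (mf M a (5 / 2 * M) ^ 2 * (1 + Real.exp (5 * M * ka M a) ^ 2)) = A
  have A0 : 0 < A := by rw [← eA]; positivity
  refine ⟨min (min 1 (Real.log 2 / A)) (min (Real.exp (ka M a * tl))
    (min b √M / (2 * mf M a (2 * M)))), by positivity, fun θ hθ => ⟨3 * M, fun R hR => ⟨0,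
      fun N _ => ⟨min (min (c / 2) (mu M r0 / 200)) (2 + 2 * M ^ 2 / r0 ^ 2)⁻¹, by positivity,
        fun ε hε d T hT x hx x0 x1 => ?_⟩⟩⟩⟩
  obtain ⟨θ0, hθ⟩ := hθ
  obtain ⟨ε0, hε⟩ := hε
  simp only [lt_min_iff, le_min_iff] at hθ hε
  obtain ⟨⟨θ1, θ2⟩, θ3, θ4⟩ := hθ
  rw [lt_div_iff₀ A0, ← eA] at θ2
  rw [lt_div_iff₀ (by positivity)] at θ4
  rcases le_or_gt (x.1 + |kx M a x|) (2 * θ * mf M a (kr M a x)) with k | k
  · refine ⟨xs x, hx.1, mid h hT h1 (b := min b √M) (c := c) (fun p e1 e2 e3 =>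
      hb p e1 (e2.trans (min_le_left _ _)) (e3.trans (min_le_left _ _))) (by linarith [hε.1.1])
      θ0.le ?_ (by linarith) hx x1 k⟩
    exact (pow_le_pow_left₀ (lt_min b0 s0).le (min_le_right _ _) 2).trans_eq (Real.sq_sqrt M0.le)
  have hK := D0_sub h1.le hx
  have m2 := mf_pos hK.2
  obtain ⟨σ, q, hq, rfl, q0, q1⟩ := ex_q h hK (lt_trans (by positivity) k)
  obtain ⟨z, z0, z1, n, -, e⟩ := back h ht (h1.trans h0) le_rfl (q0 ▸ x0) (by linarith)
    (le_of_le_of_eq hx.2.1 (ch_fst σ q)) (le_max_left _ (q.1 - tl)) (le_max_right _ _)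
  have hz : z ∈ DI M a := lt_of_lt_of_le hq z0
  refine ⟨xs (ch M a σ z), ((isCh h σ).pull.maps hz).1, ?_⟩
  rw [show pt 0 (xs (ch M a σ z)) = ch M a σ z by rw [← z1, ← ch_fst σ, pt_xs]]
  refine (e.map _ fun u v e => e.cu h hT h1 σ r00 (by linarith [hε.1.2])
    ((le_mul_inv_iff₀' (by positivity)).1 (by simpa using hε.2)) fun p hp => ?_).rtg
  obtain ⟨⟨p0, p1, -, p2⟩, p3⟩ := hp
  refine ⟨⟨by linarith, ?_, p3⟩, by linarith, by linarith, by linarith⟩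
  rcases p2 with p2 | p2
  · exact θ3.le.trans (Real.exp_le_exp.2 (mul_le_mul_of_nonneg_left (ht p p2 p1 p3).le k0.le))
  · refine stay h θ0 θ1.le θ2.le hq ?_ ?_ p0 p1 p2 p3
    · rw [← q1, ← q0, pV] at k
      exact lt_of_mul_lt_mul_left (by linarith) (mf_pos hq).le
    · rw [q0, q1, kr, ← sq_abs (kx M a _)]
      nlinarith [mul_nonneg hx.2.1 (abs_nonneg (kx M a (ch M a σ q))),
        sq_nonneg |kx M a (ch M a σ q)|]

end Vale.Agent.P354PW
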