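import Vale.Agent.P354PW.Alg

/-!
Paths in Kerr: straight segments in the ingoing chart.
-/

open Set

noncomputable section

namespace Vale.Agent.P354PW

open Vale.Agent.P354n (R4)
open Vale.Agent.P354I (rm rp)
open Vale.Agent.P354XE
open Vale.Agent.P354YR

variable {M a c L : ℝ} {S S' : Set R4} {p q v x y z : R4}

/-! ### Chains -/

/-- Chains of length k. -/
def Rl (R : R4 → R4 → Prop) (k : ℕ) (x x' : R4) : Prop :=
  ∃ z : ℕ → R4, z 0 = x ∧ z k = x' ∧ ∀ i < k, R (z i) (z (i + 1))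

section
variable {R R' : R4 → R4 → Prop} {k : ℕ}

theorem rl0 (x : R4) : Rl R 0 x x := ⟨fun _ => x, rfl, rfl, fun _ h => absurd h (Nat.not_lt_zero _)⟩

theorem Rl.snoc (h : Rl R k x y) (h' : R y z) : Rl R (k + 1) x z := by
  obtain ⟨w, rfl, rfl, e⟩ := h
  refine ⟨fun i => if i ≤ k then w i else z, by simp, by simp, fun i hi => ?_⟩
  rcases (Nat.lt_succ_iff.1 hi).eq_or_lt with rfl | hi'
  · simpa using h'
  · simpa [hi'.le, Nat.succ_le_of_lt hi'] using e i hi'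

theorem Rl.map (h : Rl R k x y) (f : R4 → R4) (e : ∀ x y, R x y → R' (f x) (f y)) :
    Rl R' k (f x) (f y) := by
  obtain ⟨w, rfl, rfl, k⟩ := h
  exact ⟨fun i => f (w i), rfl, rfl, fun i hi => e _ _ (k i hi)⟩

theorem Rl.rtg (h : Rl R k x y) : Relation.ReflTransGen R x y := by
  obtain ⟨w, rfl, rfl, e⟩ := h
  induction k with
  | zero => exact .refl
  | succ k ih => exact (ih fun i hi => e i (hi.trans (Nat.lt_succ_self k))).tail (e k (by simp))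
end

/-! ### Segments -/

/-- The segment from x to x + v lies in S and is uniformly timelike for gin. -/
structure Sq (M a c L : ℝ) (S : Set R4) (x v : R4) : Prop where
  pos : 0 < v.1
  nrm : ‖v‖ ≤ v.1
  le : v.1 ≤ L
  mem : ∀ s ∈ Icc (0 : ℝ) 1, x + s • v ∈ S ∧ gin M a (x + s • v) v v ≤ -c * v.1 ^ 2

def Sr (M a c L : ℝ) (S : Set R4) (x y : R4) : Prop := Sq M a c L S x (y - x)

theorem Sq.mono (h : Sq M a c L S x v) {c' L' : ℝ} (hc : c' ≤ c) (hL : L ≤ L') (hS : S ⊆ S') :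
    Sq M a c' L' S' x v :=
  ⟨h.pos, h.nrm, h.le.trans hL, fun s hs => ⟨hS (h.mem s hs).1, (h.mem s hs).2.trans (by
    nlinarith [sq_nonneg v.1])⟩⟩

theorem gin_smul (l : ℝ) : gin M a p (l • v) (l • v) = l ^ 2 * gin M a p v v := by
  simp only [gin, kf, dr, dT_c, dq_c, rnd_c, Prod.smul_fst, Prod.smul_snd, smul_eq_mul]
  ring

theorem hd_seg (x v : R4) (s : ℝ) : HasDerivAt (fun s : ℝ => x + s • v) v s := by
  simpa using ((hasDerivAt_id s).smul_const v).const_add x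

/-- The part of a segment after the last zero of T. -/
theorem Sq.cut {T : R4 → ℝ} (h : Sq M a c L S x v) (hT : ContinuousOn T S) (h1 : 0 ≤ T (x + v)) :
    Sq M a c L (S ∩ {p | 0 ≤ T p}) x v ∨ ∃ z ∈ S, T z = 0 ∧
      ∃ k ≤ 1, Rl (Sr M a c L (S ∩ {p | 0 ≤ T p})) k z (x + v) := by
  by_cases k : ∀ s ∈ Icc (0 : ℝ) 1, 0 ≤ T (x + s • v)
  · exact .inl ⟨h.pos, h.nrm, h.le, fun s hs => ⟨⟨(h.mem s hs).1, k s hs⟩, (h.mem s hs).2⟩⟩
  right
  push Not at k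
  obtain ⟨s0, hs0, k⟩ := k
  have cf : ContinuousOn (fun s : ℝ => T (x + s • v)) (Icc 0 1) :=
    hT.comp (by fun_prop) fun s hs => (h.mem s hs).1
  obtain ⟨σ, ⟨hσ, e0⟩, hm⟩ := (isCompact_Icc.of_isClosed_subset
    (cf.preimage_isClosed_of_isClosed isClosed_Icc (isClosed_Iic (a := (0 : ℝ))))
    inter_subset_left).exists_isGreatest ⟨s0, hs0, k.le⟩
  obtain ⟨s1, hs1, e1⟩ := intermediate_value_Icc hσ.2 (cf.mono (Icc_subset_Icc_left hσ.1))
    (show (0 : ℝ) ∈ _ from ⟨e0, by simpa using h1⟩)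
  obtain rfl : s1 = σ := (hm ⟨⟨hσ.1.trans hs1.1, hs1.2⟩, e1.le⟩).antisymm hs1.1
  refine ⟨x + s1 • v, (h.mem s1 hσ).1, e1, ?_⟩
  rcases hσ.2.eq_or_lt with rfl | l1
  · exact ⟨0, zero_le_one, by simpa using rl0 (x + v)⟩
  have l0 := sub_pos.2 l1
  refine ⟨1, le_rfl, (rl0 _).snoc ?_⟩
  rw [Sr, show x + v - (x + s1 • v) = (1 - s1) • v by module]
  refine ⟨mul_pos l0 h.pos, ?_, ?_, fun s hs => ?_⟩
  · rw [norm_smul, Real.norm_of_nonneg l0.le]; exact mul_le_mul_of_nonneg_left h.nrm l0.le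
  · exact (mul_le_of_le_one_left h.pos.le (by linarith [hσ.1])).trans h.le
  have m0 : s1 ≤ s1 + s * (1 - s1) := le_add_of_nonneg_right (mul_nonneg hs.1 l0.le)
  have m : s1 + s * (1 - s1) ∈ Icc (0 : ℝ) 1 := ⟨hσ.1.trans m0, by nlinarith [hs.2]⟩
  rw [show x + s1 • v + s • (1 - s1) • v = x + (s1 + s * (1 - s1)) • v by module, gin_smul]
  refine ⟨⟨(h.mem _ m).1, show 0 ≤ T _ from le_of_not_gt fun n => ?_⟩, ?_⟩
  · rw [(hm ⟨m, n.le⟩).antisymm m0] at n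
    exact n.ne e1
  · have := mul_le_mul_of_nonneg_left (h.mem _ m).2 (sq_nonneg (1 - s1))
    simp only [Prod.smul_fst, smul_eq_mul]
    linarith

theorem rd_congr (e : p.2 = q.2) : rd p = rd q := by rw [rd, rd, xs, xs, e]

theorem rd_smul {l : ℝ} (h : 0 ≤ l) (e : p.2 = l • q.2) : rd p = l * rd q :=
  rd_eq (mul_nonneg h (rd_nn q)) (by
    rw [mul_pow, rd_sq, e]
    simp only [Prod.smul_fst, Prod.smul_snd, smul_eq_mul]
    ring)

/-- Vertical segments. -/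
theorem vert (h : |a| < M) (hr : 21 / 10 * M ≤ rd x) {τ : ℝ} (h0 : 0 < τ) :
    Sq M a (1 / 100) τ {p | p.2 = x.2 ∧ p.1 ∈ Icc x.1 (x.1 + τ)} x (τ, 0) :=
  ⟨h0, by simp [abs_of_pos h0, h0.le], le_rfl, fun s hs => ⟨⟨by simp, by
    simp only [Prod.fst_add, Prod.smul_fst, smul_eq_mul]
    constructor <;> nlinarith [hs.1, hs.2]⟩,
    slow h (hr.trans_eq (rd_congr (by simp))) h0.le (by simp [sp]; positivity)⟩⟩

/-- Chords. -/
theorem chord (h : |a| < M) {R : ℝ} (x0 : 3 * M ≤ rd x) (x1 : rd x ≤ R) (y0 : 3 * M ≤ rd y)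
    (y1 : rd y ≤ R) (e : 0 ≤ sp x y) (t : y.1 = x.1 + 200 * R) :
    Sr M a (1 / 100) (200 * R) {p | 2 * M ≤ rd p ∧ rd p ≤ R ∧ p.1 ∈ Icc x.1 y.1} x y := by
  have M0 := M_pos h
  have R0 : 0 < R := by linarith
  have t1 : (y - x).1 = 200 * R := by rw [Prod.fst_sub, t]; ring
  have a0 := pow_le_pow_left₀ (by positivity) x0 2
  have a1 := pow_le_pow_left₀ (rd_nn x) x1 2
  have b0 := pow_le_pow_left₀ (by positivity) y0 2
  have b1 := pow_le_pow_left₀ (rd_nn y) y1 2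
  have e1 : sp (y - x) (y - x) = rd x ^ 2 + rd y ^ 2 - 2 * sp x y := by
    simp only [rd_sq, sp, Prod.fst_sub, Prod.snd_sub]; ring
  have e2 : 0 ≤ sp (y - x) (y - x) := (sq_nonneg _).trans (nrm_sq _)
  have k : sp (y - x) (y - x) ≤ ((y - x).1 / 100) ^ 2 := by rw [t1]; nlinarith
  refine ⟨by rw [t1]; positivity, nrm_le (by rw [t1]; positivity) (k.trans (by
    nlinarith [sq_nonneg (y - x).1])), t1.le, fun s hs => ?_⟩
  have s1 := sub_nonneg.2 hs.2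
  have e3 : rd (x + s • (y - x)) ^ 2 =
      (1 - s) ^ 2 * rd x ^ 2 + s ^ 2 * rd y ^ 2 + 2 * (s * (1 - s)) * sp x y := by
    simp only [rd_sq, sp, Prod.fst_sub, Prod.snd_sub, Prod.fst_add, Prod.snd_add, Prod.smul_fst,
      Prod.smul_snd, smul_eq_mul]
    ring
  have c0 := mul_nonneg hs.1 s1
  have c1 := mul_le_mul_of_nonneg_left a0 (sq_nonneg (1 - s))
  have c2 := mul_le_mul_of_nonneg_left b0 (sq_nonneg s)
  have c3 := mul_le_mul_of_nonneg_left a1 (sq_nonneg (1 - s))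
  have c4 := mul_le_mul_of_nonneg_left b1 (sq_nonneg s)
  have c5 := mul_le_mul_of_nonneg_left (show sp x y ≤ R ^ 2 by linarith) c0
  have c6 := mul_nonneg (sq_nonneg (2 * s - 1)) (sq_nonneg M)
  have d0 : 21 / 10 * M ≤ rd (x + s • (y - x)) :=
    (abs_le_of_sq_le_sq' (by nlinarith [mul_nonneg c0 e, sq_nonneg M]) (rd_nn _)).2
  refine ⟨⟨by linarith, (abs_le_of_sq_le_sq' (by nlinarith) R0.le).2, ?_⟩,
    slow h d0 (by rw [t1]; positivity) k⟩
  rw [Prod.fst_add, Prod.smul_fst, t1, t, smul_eq_mul]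
  constructor <;> nlinarith [hs.1]

/-- The start of an ingoing radial segment. -/
def up (μ ρ : ℝ) (q : R4) : R4 := (q.1 - (1 + μ) * (ρ - rd q), (ρ / rd q) • q.2)

theorem up_rd {μ ρ : ℝ} (h0 : 0 < rd q) (h1 : rd q ≤ ρ) : rd (up μ ρ q) = ρ := by
  rw [rd_smul (div_nonneg (h0.le.trans h1) h0.le) rfl, div_mul_cancel₀ _ h0.ne']

/-- Ingoing radial segments. -/
theorem rad (hM : 0 ≤ M) {μ ρ : ℝ} (m0 : 0 ≤ μ) (m1 : μ ≤ 1) (h0 : 0 < rd q)
    (m2 : 2 * M * μ ≤ rd q) (h1 : rd q < ρ) :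
    Sr M a (μ / 4) (2 * ρ) {p | rd q ≤ rd p ∧ rd p ≤ ρ ∧ p.1 ≤ q.1 ∧
      q.1 - p.1 ≤ 2 * (rd p - rd q)} (up μ ρ q) q := by
  have d0 := sub_pos.2 h1
  have e1 : (q - up μ ρ q).1 = (1 + μ) * (ρ - rd q) := by simp [up]
  have e2 : (q - up μ ρ q).2 = (-((ρ - rd q) / rd q)) • q.2 := by
    rw [Prod.snd_sub, up, show -((ρ - rd q) / rd q) = 1 - ρ / rd q by field_simp; ring]
    module
  have e3 : sp (q - up μ ρ q) (q - up μ ρ q) = (ρ - rd q) ^ 2 := by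
    rw [sp, e2]
    simp only [Prod.smul_fst, Prod.smul_snd, smul_eq_mul]
    field_simp
    linear_combination (-1) * rd_sq q
  have t0 : 0 < (q - up μ ρ q).1 := by rw [e1]; positivity
  refine ⟨t0, nrm_le t0.le (by
    rw [e1, e3]; nlinarith [mul_nonneg m0 d0.le]), by rw [e1]; nlinarith, fun s hs => ?_⟩
  have s0 := mul_nonneg hs.1 d0.le
  have s1 := mul_nonneg (sub_nonneg.2 hs.2) d0.le
  have l0 : 0 < ρ - s * (ρ - rd q) := by linarith
  have e4 : (up μ ρ q + s • (q - up μ ρ q)).2 = ((ρ - s * (ρ - rd q)) / rd q) • q.2 := by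
    rw [Prod.snd_add, Prod.smul_snd, e2, up, show (ρ - s * (ρ - rd q)) / rd q =
      ρ / rd q + s * -((ρ - rd q) / rd q) by ring]
    module
  have e5 : rd (up μ ρ q + s • (q - up μ ρ q)) = ρ - s * (ρ - rd q) := by
    rw [rd_smul (div_pos l0 h0).le e4, div_mul_cancel₀ _ h0.ne']
  have e6 : (up μ ρ q + s • (q - up μ ρ q)).1 = q.1 - (1 + μ) * ((1 - s) * (ρ - rd q)) := by
    rw [Prod.fst_add, Prod.smul_fst, e1, up, smul_eq_mul]; ring
  refine ⟨?_, fast hM (xs_ne (e5 ▸ l0)) m0 m1 (by rw [e5]; linarith) e1 ?_⟩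
  · simp only [mem_ofPred_eq, e5, e6]
    refine ⟨by linarith, by linarith, ?_, ?_⟩ <;> nlinarith [mul_nonneg m0 s1]
  · rw [e2, e4, e5, smul_smul]
    congr 1
    have := l0.ne'
    generalize ρ - s * (ρ - rd q) = l at *
    field_simp

end Vale.Agent.P354PW
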